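import Vale.Agent.P354CB.Defs

/-!
The connection as a smooth field, and the equation for the second derivative of an isometry.
-/

open scoped ContDiff
open Set Filter Topology

namespace Vale.Agent.P354CB97

open Vale.Agent.P354n
open Vale.Agent.P354XE (Lor)
open Vale.Agent.P354RC
open Vale.Agent.P354CB

/-- The connection of h as a field of continuous bilinear maps. -/
noncomputable def Gc (h : R4 → B2) (y : R4) : R4 →L[ℝ] R4 →L[ℝ] R4 :=
  LinearMap.toContinuousLinearMap
    ((LinearMap.toContinuousLinearMap (𝕜 := ℝ) (E := R4) (F' := R4)).toLinearMap ∘ₗ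
      LinearMap.mk₂ ℝ (Gm h y) (Gm_add1 h y) (Gm_smul1 h y) (Gm_add2 h y) (Gm_smul2 h y))

theorem gc_ap (h : R4 → B2) (y a b : R4) : Gc h y a b = Gm h y a b := rfl

theorem gc_cd {g : R4 → R4 → R4 → ℝ} {h : R4 → B2} {D : Set R4} (r : Rp g h D) :
    ContDiffOn ℝ ∞ (Gc h) D :=
  contDiffOn_clm_apply.2 fun _ => contDiffOn_clm_apply.2 fun _ _ hy =>
    (r.gm_cd hy contDiffAt_const contDiffAt_const).contDiffWithinAt

theorem lk3 : LK3 where
  gam h := by
    obtain ⟨k, r⟩ := rp_of_met h.isOpen h.met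
    exact ⟨Gc k, gc_cd r, fun y hy G => r.conn hy⟩
  je h h' F p G G' k c c' a b := by
    obtain ⟨W, w, o, m⟩ := eventually_nhds_iff.1 k
    have P := P354YC.pull_of h h' o w
    obtain ⟨l, r⟩ := rp_of_met h'.isOpen h'.met
    rw [((rp_pb P r).conn m).1 c, (r.conn (w p m).2.1).1 c', Gm_pb P r m, add_sub_cancel_left]

end Vale.Agent.P354CB97
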