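import Vale.Agent.P354CB.Ez

/-!
A lens shaped domain in a chart is a development of a part of the data.
-/

open scoped ContDiff
open Set Filter Topology Metric

namespace Vale.Agent.P354CB97

open Vale.Agent.P354n
open Vale.Agent.P354I (X Dat pd)
open Vale.Agent.P354XE (Tw Lor pt xs)
open Vale.Agent.P354XJ
open Vale.Agent.P354YC (IndAt)
open Vale.Agent.P354XK (pd_congr)
open Vale.Agent.P354CB

/-- The slice as a linear map. -/
noncomputable def pL : X →L[ℝ] R4 := (0 : X →L[ℝ] ℝ).prod ((EuclideanSpace.proj 0).prod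
  ((EuclideanSpace.proj 1).prod (EuclideanSpace.proj 2)))

theorem pl_eq : pt 0 = pL := rfl

theorem ind_congr {g : Tw} {Xf : R4 → R4} {J J' : X → R4} {d : Dat} {y : X}
    (h : IndAt g Xf J d y) (e : J' =ᶠ[𝓝 y] J) : IndAt g Xf J' d y := by
  have e2 : ∀ i k, pd i (pd k J') y = pd i (pd k J) y := fun i k =>
    pd_congr (e.eventuallyEq_nhds.mono fun _ a => pd_congr a k) i
  simpa only [IndAt, e.self_of_nhds, pd_congr e, e2] using h

theorem lor_sub {g : Tw} {D D' : Set R4} {Xf : R4 → R4} (h : Lor g D Xf) (ho : IsOpen D')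
    (k : D' ⊆ D) : Lor g D' Xf :=
  ⟨ho, ⟨fun y hy => h.met.lin y (k hy), fun y hy => h.met.symm y (k hy),
    fun y hy => h.met.nondeg y (k hy), fun a b => (h.met.smooth a b).mono k⟩,
    h.vac.imp fun _ e y hy => e y (k hy), fun p hp => h.sig p (k hp), fun p hp => h.tl p (k hp),
    h.cont.mono k⟩

/-- The function whose sublevel sets are the lenses. -/
noncomputable def ln (C : ℝ) (q : ℝ × ℝ × ℝ) (x : R4) : ℝ := C * |x.1| + ‖x.2 - q‖

theorem ln_cont (C : ℝ) (q : ℝ × ℝ × ℝ) : Continuous (ln C q) := by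
  unfold ln
  fun_prop

theorem ln_le {C : ℝ} {q : ℝ × ℝ × ℝ} {a b : R4} (h : ‖a - b‖ ≤ C * |b.1| - C * |a.1|) :
    ln C q a ≤ ln C q b := by
  have := (norm_sub_le_norm_sub_add_norm_sub a.2 b.2 q).trans
    (add_le_add (norm_snd_le (a - b)) le_rfl)
  unfold ln
  linarith

theorem core {C r : ℝ} {q : ℝ × ℝ × ℝ} {z : ℝ → R4} (C0 : 0 ≤ C)
    (hd : ∀ u ∈ Ioo (0 : ℝ) 1, ∀ v ∈ Ioo (0 : ℝ) 1, u ≤ v →
      ‖z v - z u‖ ≤ C * (z v).1 - C * (z u).1)
    (hc : ContinuousOn z (Ioo 0 1)) (hin : ln C q (z (1 / 2)) < r)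
    (h0 : ∀ u ∈ Ioo (0 : ℝ) 1, (z u).1 ≠ 0) :
    ∃ x, ln C q x < r ∧ (Tendsto z (𝓝[<] 1) (𝓝 x) ∨ Tendsto z (𝓝[>] 0) (𝓝 x)) := by
  have m : (1 / 2 : ℝ) ∈ Ioo (0 : ℝ) 1 := by norm_num
  have mo : MonotoneOn (fun u => C * (z u).1) (Ioo 0 1) := fun u hu v hv k =>
    sub_nonneg.1 ((norm_nonneg _).trans (hd u hu v hv k))
  have pc := (isPreconnected_Ioo (a := (0 : ℝ)) (b := 1)).image _ hc.fst
  rcases pc.subset_or_subset isOpen_Iio isOpen_Ioi (Iio_disjoint_Ioi_same (a := 0)) (by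
      rintro _ ⟨u, hu, rfl⟩
      exact (h0 u hu).lt_or_gt) with k | k
  · replace k : ∀ u ∈ Ioo (0 : ℝ) 1, (z u).1 < 0 := fun u hu => k ⟨u, hu, rfl⟩
    obtain ⟨x, hx⟩ := conv_of_dist hd (Ioo_mem_nhdsLT zero_lt_one)
      (mo.tendsto_nhdsWithin_Ioo_left ⟨_, m⟩ ⟨0, by
        rintro _ ⟨u, hu, rfl⟩
        exact mul_nonpos_of_nonneg_of_nonpos C0 (k u hu).le⟩)
    refine ⟨x, lt_of_le_of_lt (le_of_tendsto (((ln_cont C q).tendsto x).comp hx) ?_) hin, .inl hx⟩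
    filter_upwards [Ioo_mem_nhdsLT m.2] with u hu
    have hu' : u ∈ Ioo (0 : ℝ) 1 := ⟨m.1.trans hu.1, hu.2⟩
    refine ln_le ((hd _ m u hu' hu.1.le).trans_eq ?_)
    rw [abs_of_neg (k _ m), abs_of_neg (k u hu')]
    ring
  · replace k : ∀ u ∈ Ioo (0 : ℝ) 1, 0 < (z u).1 := fun u hu => k ⟨u, hu, rfl⟩
    obtain ⟨x, hx⟩ := conv_of_dist hd (Ioo_mem_nhdsGT zero_lt_one)
      (mo.tendsto_nhdsWithin_Ioo_right ⟨_, m⟩ ⟨0, by
        rintro _ ⟨u, hu, rfl⟩
        exact mul_nonneg C0 (k u hu).le⟩)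
    refine ⟨x, lt_of_le_of_lt (le_of_tendsto (((ln_cont C q).tendsto x).comp hx) ?_) hin, .inr hx⟩
    filter_upwards [Ioo_mem_nhdsGT m.1] with u hu
    have hu' : u ∈ Ioo (0 : ℝ) 1 := ⟨hu.1, hu.2.trans m.2⟩
    refine ln_le ((norm_sub_rev _ _).trans_le ((hd u hu' _ m hu.2.le).trans_eq ?_))
    rw [abs_of_pos (k _ m), abs_of_pos (k u hu')]

/-- The slice t = 0 is a Cauchy surface of a lens. -/
theorem lens {g : Tw} {Xf : R4 → R4} {C r : ℝ} {q : ℝ × ℝ × ℝ} (C0 : 0 < C)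
    (h : Lor g {x | ln C q x < r} Xf)
    (hC : ∀ x, ln C q x < r → ∀ w, g x w w ≤ 0 → g x w (Xf x) ≤ 0 → ‖w‖ ≤ C * w.1) :
    GH0 (one _ h.isOpen g Xf) {x | x.1.1 = 0} := by
  refine ⟨⟨one_sp h, one_vac h⟩, inferInstanceAs (SecondCountableTopology {x | ln C q x < r}),
    fun c hc hl => ?_⟩
  have m : (1 / 2 : ℝ) ∈ Ioo (0 : ℝ) 1 := by norm_num
  choose! w h1 h2 h3 using fun u (hu : u ∈ Ioo (0 : ℝ) 1) =>
    P354XJ.vel (e := c (1 / 2)) hc (Ioo_mem_nhds hu.1 hu.2) (one_on _)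
  have b := fun u hu => hC _ (c u).2 (w u) (h2 u hu).le (h3 u hu).le
  have h4 : ∀ u ∈ Ioo (0 : ℝ) 1, HasDerivAt (fun u => (c u).1.1) (w u).1 u := fun u hu =>
    (h1 u hu).fst
  have mo : StrictMonoOn (fun u => (c u).1.1) (Ioo 0 1) := by
    refine strictMonoOn_of_deriv_pos (convex_Ioo 0 1)
      (fun u hu => (h4 u hu).continuousAt.continuousWithinAt) fun u hu => ?_
    rw [interior_Ioo] at hu
    rw [(h4 u hu).deriv]
    refine (mul_pos_iff_of_pos_left C0).1 ((norm_pos_iff.2 fun k => ?_).trans_le (b u hu))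
    have := h2 u hu
    rw [k] at this
    have z := (bilin_of h (c u).2).smul_left 0 0 0
    rw [zero_smul, zero_mul] at z
    exact this.ne z
  refine existsUnique_of_exists_of_unique ?_ fun s t hs ht =>
    mo.injOn hs.1 ht.1 (hs.2.trans ht.2.symm)
  by_contra! n
  obtain ⟨x, x1, x2⟩ := core (z := fun u => (c u).1) C0.le (fun u hu v hv k =>
    dist_le_of_dom (f := fun u => C * (c u).1.1) (f' := fun u => C * (w u).1)
      (fun u hu => ⟨h1 u hu, (h4 u hu).const_mul C, b u hu⟩) hu hv k)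
    (fun u hu => (h1 u hu).continuousAt.continuousWithinAt) (c _).2 n
  exact x2.elim (fun k => (hl ⟨x, x1⟩).1 (tendsto_subtype_rng.2 k))
    fun k => (hl ⟨x, x1⟩).2 (tendsto_subtype_rng.2 k)

theorem ld2 : LD2 := by
  intro d hd y hy g D Xf h hD h0 hI
  obtain ⟨n, -, -, S⟩ := hI.self_of_nhds.sp h hD (hd.2 y hy).1
  have T : P354XE.Tm g Xf (fun p => p.1) (pt 0 y) := by
    have e : ∀ v, fderiv ℝ (fun p : R4 => p.1) (pt 0 y) v = v.1 := fun v => by rw [fderiv_fst]; rfl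
    refine ⟨contDiffAt_fst, e _ ▸ h0, fun v v0 k => ?_⟩
    have e1 : fderiv ℝ (pt 0) y (xs v) = v := by
      rw [pl_eq, pL.fderiv]
      exact Prod.ext ((e v).symm.trans k).symm rfl
    exact e1 ▸ S.pos (xs v) fun a => v0 (by rw [← e1, a, map_zero])
  obtain ⟨C, C0, hC⟩ := tm_bound h hD T
  have k1 : ∀ᶠ x in 𝓝 (pt 0 y), xs x ≠ 0 ∧ IndAt g Xf (pt 0) d (xs x) :=
    xs_cont.continuousAt.eventually (p := fun z => z ≠ 0 ∧ IndAt g Xf (pt 0) d z) (by
      rw [xs_pt]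
      exact (eventually_ne_nhds hy).and hI)
  obtain ⟨r, r0, hr⟩ := Metric.eventually_nhds_iff_ball.1 ((hC.and k1).and (h.isOpen.mem_nhds hD))
  have sub : ∀ x, ln (C + 1) (pt 0 y).2 x < r → x ∈ ball (pt 0 y) r := fun x hx => by
    rw [mem_ball_iff_norm, Prod.norm_def]
    unfold ln at hx
    refine max_lt ?_ ?_
    · show ‖x.1 - 0‖ < r
      rw [sub_zero, Real.norm_eq_abs]
      nlinarith [norm_nonneg (x.2 - (pt 0 y).2), abs_nonneg x.1]
    · show ‖x.2 - (pt 0 y).2‖ < r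
      nlinarith [abs_nonneg x.1]
  have L := lor_sub h (isOpen_lt (ln_cont (C + 1) (pt 0 y).2) continuous_const)
    fun x hx => (hr x (sub x hx)).2
  have G := lens (by linarith) L fun x hx w a b => by
    have k2 := (hr x (sub x hx)).1.1 w a b
    rw [show fderiv ℝ (fun p : R4 => p.1) x w = w.1 by rw [fderiv_fst]; rfl] at k2
    have k3 : 0 ≤ w.1 := nonneg_of_mul_nonneg_right ((norm_nonneg _).trans k2) C0
    linarith
  have y0 : ln (C + 1) (pt 0 y).2 (pt 0 y) < r := by simpa [ln, pt] using r0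
  let O : Set X := {z | ln (C + 1) (pt 0 y).2 (pt 0 z) < r}
  have oO : IsOpen O := isOpen_lt ((ln_cont _ _).comp pL.continuous) continuous_const
  classical
  let j : X → {x | ln (C + 1) (pt 0 y).2 x < r} := fun z =>
    if k : z ∈ O then ⟨pt 0 z, k⟩ else ⟨pt 0 y, y0⟩
  have hj : ∀ z ∈ O, (j z).1 = pt 0 z := fun z k => by simp only [j, dif_pos k]
  refine ⟨⟨O, one _ L.isOpen g Xf, j, ?_, oO, ⟨y, y0⟩, fun z k => ?_, ?_, fun z k e _ => ?_⟩, y0⟩
  · convert G using 1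
    ext x
    refine ⟨?_, fun k => ?_⟩
    · rintro ⟨z, k, rfl⟩
      exact congrArg Prod.fst (hj z k)
    · have e : pt 0 (xs x.1) = x.1 := Prod.ext k.symm rfl
      have m : xs x.1 ∈ O := by
        show ln _ _ _ < r
        rw [e]
        exact x.2
      exact ⟨_, m, Subtype.ext ((hj _ m).trans e)⟩
  · exact xs_pt 0 z ▸ (hr _ (sub _ k)).1.2.1
  · refine .of_comp (f := fun z : O => j z) (g := fun x => xs x.1) (continuous_induced_rng.2
      ((pL.continuous.comp continuous_subtype_val).congr fun z => (hj z z.2).symm))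
      (xs_cont.comp continuous_subtype_val) ?_
    convert IsEmbedding.subtypeVal (p := (· ∈ O)) using 1
    exact funext fun z => (congrArg xs (hj z z.2)).trans (xs_pt 0 z)
  · have ev : (fun z => co e (j z)) =ᶠ[𝓝 z] pt 0 := eventually_of_mem (oO.mem_nhds k) hj
    exact ⟨pL.contDiff.contDiffAt.congr_of_eventuallyEq ev,
      ind_congr (xs_pt 0 z ▸ (hr _ (sub _ k)).1.2.2) ev⟩

end Vale.Agent.P354CB97
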