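import Vale.Agent.P354CB.Ez

/-!
Existence and uniqueness of the maximal development from the steps.
-/

open Set Filter Topology

namespace Vale.Agent.P354CB97

open Vale.Agent.P354n
open Vale.Agent.P354I (X Dat IsDev)
open Vale.Agent.P354J (PDy)
open Vale.Agent.P354CB

variable {d : Dat} {A B C : LD d} {x : A.N.pt} {x' : B.N.pt} {x'' : C.N.pt}

theorem rel_symm (T : L3) (hd : PDy d) (h : Rel A B x x') : Rel B A x' x := by
  obtain ⟨U, ψ, c, m, rfl⟩ := h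
  obtain ⟨φ, c', k⟩ := T.symm d hd A B U ψ c
  exact ⟨_, φ, c', mem_image_of_mem ψ m, k x m⟩

theorem rel_trans (T : L3) (hd : PDy d) (h : Rel A B x x') (k : Rel B C x' x'') :
    Rel A C x x'' := by
  obtain ⟨U, ψ, c, m, rfl⟩ := h
  obtain ⟨V, φ, c', m', rfl⟩ := k
  exact ⟨_, _, T.trans d hd A B C U ψ V φ c c', ⟨m, m'⟩, rfl⟩

theorem rel_self (K : LK1) (T : L3) (hd : PDy d) {y : A.N.pt} (h : Rel A A x y) : x = y := by
  obtain ⟨U, ψ, c, m, rfl⟩ := h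
  exact (T.func d hd A A U ψ univ id c (com_id K A) ⟨m, trivial⟩).symm

theorem open_lm (K : LK2) {M N : Spc} (hM : St M) (hN : St N) {F : M.pt → N.pt}
    (h : ∀ p, LM F p) : IsOpenMap F := by
  refine fun V hV => isOpen_iff_mem_nhds.2 ?_
  rintro _ ⟨p, hp, rfl⟩
  obtain ⟨W, φ, -, m, o, k⟩ := K.inv hM hN (x := p) (.of_forall h)
  have : φ ⁻¹' V ∈ 𝓝 (F p) := (k p m).2.2.1 (by rw [(k p m).2.1]; exact hV.mem_nhds hp)
  filter_upwards [this, o.mem_nhds (mem_image_of_mem F m)]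
  rintro _ a ⟨z, hz, rfl⟩
  exact ⟨z, by rwa [mem_preimage, (k z hz).2.1] at a, rfl⟩

theorem mg (Z : L0) (T : L3) (h1 : LD1) (h2 : LD2) (hS : SAT) (g1 : GL1) (g2 : GL2) : MG := by
  intro d hd hc
  obtain ⟨A, cov, sat⟩ := hS d hd fun y hy => by
    obtain ⟨g, D, Xf, a, b, c, e⟩ := h1 d hd hc y hy
    exact h2 d hd y hy g D Xf a b c e
  obtain ⟨N, κ, G⟩ := g1 d hd _ A
  obtain ⟨j, dev, hj⟩ := g2 d hd _ A N κ G cov
  refine ⟨N, j, dev, fun N' j' dev' => ?_⟩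
  let B : LD d := ⟨{0}ᶜ, N', j', dev_of dev'⟩
  choose i x hx using sat B
  have e : ∀ p k z, Rel B (A k) p z → κ (i p) (x p) = κ k z := fun p k z h =>
    (G.eq ..).2 (rel_trans T hd (rel_symm T hd (hx p)) h)
  have lm : ∀ p, LM (M := N') (fun p => κ (i p) (x p)) p := fun p => by
    obtain ⟨U, ψ, c, m, -⟩ := hx p
    refine Z.k1.congr (Z.k1.comp B.h.gh.st (A (i p)).h.gh.st G.st (c.lm p m)
      (Z.k1.of_isom (G.iso _) (G.emb _).continuous _)) ?_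
    filter_upwards [c.hull.op.mem_nhds m] with q hq using e q _ _ ⟨U, ψ, c, hq, rfl⟩
  refine ⟨_, .of_continuous_injective_isOpenMap (continuous_iff_continuousAt.2 fun p => (lm p).1)
    (fun p q h => ?_) (open_lm Z.k2 B.h.gh.st G.st lm), Z.k1.isom lm, fun y hy => ?_⟩
  · exact rel_self (A := B) Z.k1 T hd
      (rel_trans T hd (rel_trans T hd (hx p) ((G.eq ..).1 h)) (rel_symm T hd (hx q)))
  · obtain ⟨k, hk⟩ := cov y hy
    exact (e _ k _ (T.base d hd B (A k) y hy hk)).trans (hj k y hk)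

theorem uq (Z : L0) (T : L3) : UQ := by
  have key : ∀ d, PDy d → ∀ (N N' : Spc) j j', IsDev d N j → IsDev d N' j' →
      ∀ (κ : N.pt → N'.pt) (κ' : N'.pt → N.pt), Continuous κ → IsIsom κ → Continuous κ' →
      IsIsom κ' → (∀ y ≠ 0, κ (j y) = j' y) → (∀ y ≠ 0, κ' (j' y) = j y) → ∀ p, κ' (κ p) = p := by
    intro d hd N N' j j' h h' κ κ' c i c' i' e e' p
    let A : LD d := ⟨{0}ᶜ, N, j, dev_of h⟩
    refine (rel_self (A := A) Z.k1 T hd ⟨univ, κ' ∘ κ, ⟨Hull.univ, fun q _ => ?_, fun y hy _ =>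
      ⟨hy, (congrArg κ' (e y hy)).trans (e' y hy)⟩⟩, trivial, rfl⟩).symm
    exact Z.k1.comp A.h.gh.st (dev_of h').gh.st A.h.gh.st (Z.k1.of_isom i c q)
      (Z.k1.of_isom i' c' _)
  intro d hd N j N' j' h h'
  obtain ⟨κ, a, b, c⟩ := h'.2 N j h.1
  obtain ⟨κ', a', b', c'⟩ := h.2 N' j' h'.1
  exact ⟨⟨⟨κ, κ', key d hd N N' j j' h.1 h'.1 κ κ' a.continuous b a'.continuous b' c c',
    key d hd N' N j' j h'.1 h.1 κ' κ a'.continuous b' a.continuous b c' c⟩, a.continuous,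
    a'.continuous⟩, b, b', c⟩

end Vale.Agent.P354CB97
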